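import Mathlib

/-!
# A gadget reduction from satisfiable Max-Not-2 to 2-to-1 games with alphabets of sizes 12 and 6

Every Not-2 instance `Φ` (three literals per clause, a clause holds unless exactly two literals are
true) is sent to an explicit 2-to-1 game with `q = 6`: two left vertices and one fresh right vertex
per clause, five constraints per clause, uniform distribution.  The value of the game is exactly
`(4 + value Φ) / 5`, and a satisfying assignment gives a labeling satisfying all constraints.
-/

namespace Vale.Agent.Results.P339.NotTwoGadget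

open Finset

/-- A 2-to-1 game with alphabets `Fin (2 * q)` (left) and `Fin q` (right): a list of constraints
indexed by `E`, each with a left vertex, a right vertex and a map `proj e` that is exactly 2-to-1,
and a probability distribution `weight` on `E`. -/
structure TwoToOneGame (q : ℕ) (U V E : Type) [Fintype E] where
  leftVertex : E → U
  rightVertex : E → V
  proj : E → Fin (2 * q) → Fin q
  two_to_one : ∀ e b, (univ.filter fun a => proj e a = b).card = 2
  weight : E → ℝ
  weight_nonneg : ∀ e, 0 ≤ weight e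
  weight_sum : ∑ e, weight e = 1

/-- The probability that a random constraint is satisfied by the labeling `(A, B)`. -/
noncomputable def TwoToOneGame.satWeight {q : ℕ} {U V E : Type} [Fintype E]
    (G : TwoToOneGame q U V E) (A : U → Fin (2 * q)) (B : V → Fin q) : ℝ :=
  ∑ e, G.weight e * (if G.proj e (A (G.leftVertex e)) = B (G.rightVertex e) then 1 else 0)

/-- The value of the game: the supremum over labelings of the satisfied probability. -/
noncomputable def TwoToOneGame.value {q : ℕ} {U V E : Type} [Fintype E]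
    (G : TwoToOneGame q U V E) : ℝ :=
  ⨆ L : (U → Fin (2 * q)) × (V → Fin q), G.satWeight L.1 L.2

/-- A Not-2 instance with `n` Boolean variables and `m` clauses: each clause has three
literals, given by a variable and a negation flag. -/
structure NotTwoInstance (n m : ℕ) where
  var : Fin m → Fin 3 → Fin n
  neg : Fin m → Fin 3 → Bool

/-- The truth value of the `i`-th literal of clause `c` under the assignment `σ`. -/
def NotTwoInstance.lit {n m : ℕ} (Φ : NotTwoInstance n m) (σ : Fin n → Bool)
    (c : Fin m) (i : Fin 3) : Bool :=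
  xor (σ (Φ.var c i)) (Φ.neg c i)

/-- Clause `c` holds under `σ` unless exactly two of its literals are true. -/
def NotTwoInstance.ClauseHolds {n m : ℕ} (Φ : NotTwoInstance n m) (σ : Fin n → Bool)
    (c : Fin m) : Prop :=
  (univ.filter fun i => Φ.lit σ c i = true).card ≠ 2

instance {n m : ℕ} (Φ : NotTwoInstance n m) (σ : Fin n → Bool) (c : Fin m) :
    Decidable (Φ.ClauseHolds σ c) := by
  unfold NotTwoInstance.ClauseHolds; infer_instance

/-- The fraction of clauses satisfied by `σ`. -/
noncomputable def NotTwoInstance.fraction {n m : ℕ} (Φ : NotTwoInstance n m)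
    (σ : Fin n → Bool) : ℝ :=
  ((univ.filter fun c => Φ.ClauseHolds σ c).card : ℝ) / m

/-- The value of the instance: the largest satisfiable fraction of clauses. -/
noncomputable def NotTwoInstance.value {n m : ℕ} (Φ : NotTwoInstance n m) : ℝ :=
  ⨆ σ : Fin n → Bool, Φ.fraction σ

/-- Right labels: `0, 1, 2` decode to false and `3, 4, 5` decode to true. -/
def decode (x : Fin 6) : Bool := decide (3 ≤ x.val)

/-- The involution of right labels that swaps the two decoding classes. -/
def swapLabel (x : Fin 6) : Fin 6 := x + 3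

/-- Relabeling for a negated literal. -/
def signed (b : Bool) (x : Fin 6) : Fin 6 := if b then swapLabel x else x

/-- First left vertex of a clause: its label gives the first literal's label. -/
def t1x : Fin 12 → Fin 6 := ![0, 0, 3, 3, 1, 4, 4, 5, 5, 1, 2, 2]
/-- First left vertex of a clause: its label gives the second literal's label. -/
def t1y : Fin 12 → Fin 6 := ![0, 3, 0, 3, 4, 1, 4, 5, 5, 1, 2, 2]
/-- First left vertex of a clause: its label gives the label of the auxiliary vertex. -/
def t1w : Fin 12 → Fin 6 := ![0, 1, 1, 2, 3, 3, 2, 4, 4, 0, 5, 5]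
/-- Second left vertex of a clause: its label gives the label of the auxiliary vertex. -/
def t2w : Fin 12 → Fin 6 := ![0, 0, 1, 1, 2, 2, 3, 3, 4, 4, 5, 5]
/-- Second left vertex of a clause: its label gives the third literal's label. -/
def t2z : Fin 12 → Fin 6 := ![0, 3, 0, 1, 3, 4, 1, 2, 4, 5, 2, 5]

/-- The constraint map of constraint number `i` of clause `c` (as a map on `Fin 12`). -/
def gadgetProj {n m : ℕ} (Φ : NotTwoInstance n m) (c : Fin m) (i : Fin 5) (a : Fin 12) : Fin 6 :=
  match i with
  | 0 => signed (Φ.neg c 0) (t1x a)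
  | 1 => signed (Φ.neg c 1) (t1y a)
  | 2 => t1w a
  | 3 => t2w a
  | 4 => signed (Φ.neg c 2) (t2z a)

/-- The left vertex of constraint number `i` of clause `c`: constraints `0, 1, 2` use the first
left vertex `(c, false)` and constraints `3, 4` the second left vertex `(c, true)`. -/
def gadgetLeft {m : ℕ} (c : Fin m) (i : Fin 5) : Fin m × Bool :=
  match i with
  | 0 => (c, false)
  | 1 => (c, false)
  | 2 => (c, false)
  | 3 => (c, true)
  | 4 => (c, true)

/-- The right vertex of constraint number `i` of clause `c`: a variable of the clause, or the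
auxiliary right vertex `Sum.inr c` of the clause. -/
def gadgetRight {n m : ℕ} (Φ : NotTwoInstance n m) (c : Fin m) (i : Fin 5) : Fin n ⊕ Fin m :=
  match i with
  | 0 => Sum.inl (Φ.var c 0)
  | 1 => Sum.inl (Φ.var c 1)
  | 2 => Sum.inr c
  | 3 => Sum.inr c
  | 4 => Sum.inl (Φ.var c 2)

theorem table_two_to_one (f : Fin 12 → Fin 6)
    (hf : f = t1x ∨ f = t1y ∨ f = t1w ∨ f = t2w ∨ f = t2z) (b : Fin 6) :
    (univ.filter fun a => f a = b).card = 2 := by
  rcases hf with rfl | rfl | rfl | rfl | rfl <;> revert b <;> decide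

theorem signed_signed (s : Bool) (x : Fin 6) : signed s (signed s x) = x := by
  revert s x; decide

theorem signed_table_two_to_one (s : Bool) (f : Fin 12 → Fin 6)
    (hf : f = t1x ∨ f = t1y ∨ f = t1w ∨ f = t2w ∨ f = t2z) (b : Fin 6) :
    (univ.filter fun a => signed s (f a) = b).card = 2 := by
  have h : (univ.filter fun a => signed s (f a) = b) = univ.filter fun a => f a = signed s b := by
    ext a
    simp only [mem_filter, mem_univ, true_and]
    constructor
    · intro h; rw [← h, signed_signed]
    · intro h; rw [h, signed_signed]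
  rw [h]
  exact table_two_to_one f hf _

theorem gadgetProj_two_to_one {n m : ℕ} (Φ : NotTwoInstance n m) (c : Fin m) (i : Fin 5)
    (b : Fin 6) : (univ.filter fun a => gadgetProj Φ c i a = b).card = 2 := by
  match i with
  | 0 => exact signed_table_two_to_one _ t1x (by simp) b
  | 1 => exact signed_table_two_to_one _ t1y (by simp) b
  | 2 => exact table_two_to_one t1w (by simp) b
  | 3 => exact table_two_to_one t2w (by simp) b
  | 4 => exact signed_table_two_to_one _ t2z (by simp) b

/-- The gadget game of `Φ`: `q = 6`, left vertices `Fin m × Bool`, right vertices `Fin n ⊕ Fin m`,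
five constraints per clause, and the uniform distribution on the `5 * m` constraints. -/
noncomputable def gadgetGame {n m : ℕ} (Φ : NotTwoInstance n m) (hm : 0 < m) :
    TwoToOneGame 6 (Fin m × Bool) (Fin n ⊕ Fin m) (Fin m × Fin 5) where
  leftVertex e := gadgetLeft e.1 e.2
  rightVertex e := gadgetRight Φ e.1 e.2
  proj e a := gadgetProj Φ e.1 e.2 a
  two_to_one e b := gadgetProj_two_to_one Φ e.1 e.2 b
  weight _ := 1 / (5 * (m : ℝ))
  weight_nonneg _ := by positivity
  weight_sum := by
    have hm' : (m : ℝ) ≠ 0 := by exact_mod_cast hm.ne'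
    simp
    field_simp

/-- The Boolean form of the Not-2 predicate. -/
def notTwo (a b c : Bool) : Bool :=
  !((a && b && !c) || (a && !b && c) || (!a && b && c))

theorem clauseHolds_iff {n m : ℕ} (Φ : NotTwoInstance n m) (σ : Fin n → Bool) (c : Fin m) :
    Φ.ClauseHolds σ c ↔ notTwo (Φ.lit σ c 0) (Φ.lit σ c 1) (Φ.lit σ c 2) = true := by
  have key : ∀ l : Fin 3 → Bool,
      ((univ.filter fun i => l i = true).card ≠ 2) ↔ notTwo (l 0) (l 1) (l 2) = true := by
    decide
  exact key (Φ.lit σ c)

theorem local_sound : ∀ a1 a2 : Fin 12, t1w a1 = t2w a2 →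
    notTwo (decode (t1x a1)) (decode (t1y a1)) (decode (t2z a2)) = true := by
  decide

theorem decode_signed : ∀ (s : Bool) (x : Fin 6), decode (signed s x) = xor (decode x) s := by
  decide

/-- If a label `b` of a literal position agrees with the signed table value, the table value
decodes to the literal's truth value. -/
theorem decode_of_signed_eq {s : Bool} {x b : Fin 6} (h : signed s x = b) :
    decode x = xor (decode b) s := by
  rw [← h, decode_signed]; cases decode x <;> cases s <;> rfl

/-- The standard label of a truth value. -/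
def stdLabel (b : Bool) : Fin 6 := if b then 3 else 0

/-- The label of the first left vertex used for the literal pattern `(a, b)`. -/
def choice1 (a b : Bool) : Fin 12 :=
  if a then (if b then 3 else 2) else (if b then 1 else 0)

/-- The label of the second left vertex used for the literal pattern `(a, b, c)`. -/
def choice2 (a b c : Bool) : Fin 12 :=
  if a && b then 4 else if a || b then 2 else (if c then 1 else 0)

theorem choice_x : ∀ a b : Bool, t1x (choice1 a b) = stdLabel a := by decide
theorem choice_y : ∀ a b : Bool, t1y (choice1 a b) = stdLabel b := by decide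
theorem choice_w : ∀ a b c : Bool, t2w (choice2 a b c) = t1w (choice1 a b) := by decide
theorem choice_z : ∀ a b c : Bool, notTwo a b c = true → t2z (choice2 a b c) = stdLabel c := by
  decide
theorem signed_std : ∀ b s : Bool, signed s (stdLabel (xor b s)) = stdLabel b := by decide

/-- The labeling of the gadget game attached to an assignment: left part. -/
def stdLeft {n m : ℕ} (Φ : NotTwoInstance n m) (σ : Fin n → Bool) (v : Fin m × Bool) : Fin 12 :=
  if v.2 then choice2 (Φ.lit σ v.1 0) (Φ.lit σ v.1 1) (Φ.lit σ v.1 2)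
  else choice1 (Φ.lit σ v.1 0) (Φ.lit σ v.1 1)

/-- The labeling of the gadget game attached to an assignment: right part. -/
def stdRight {n m : ℕ} (Φ : NotTwoInstance n m) (σ : Fin n → Bool) (v : Fin n ⊕ Fin m) : Fin 6 :=
  match v with
  | Sum.inl t => stdLabel (σ t)
  | Sum.inr c => t1w (choice1 (Φ.lit σ c 0) (Φ.lit σ c 1))

theorem std_edge {n m : ℕ} (Φ : NotTwoInstance n m) (σ : Fin n → Bool) (c : Fin m) (i : Fin 5)
    (hi : i = 4 → Φ.ClauseHolds σ c) :
    gadgetProj Φ c i (stdLeft Φ σ (gadgetLeft c i)) = stdRight Φ σ (gadgetRight Φ c i) := by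
  match i with
  | 0 =>
    simp only [gadgetProj, gadgetLeft, gadgetRight, stdLeft, stdRight, if_false, Bool.false_eq_true]
    rw [choice_x]
    exact signed_std _ _
  | 1 =>
    simp only [gadgetProj, gadgetLeft, gadgetRight, stdLeft, stdRight, if_false, Bool.false_eq_true]
    rw [choice_y]
    exact signed_std _ _
  | 2 =>
    simp only [gadgetProj, gadgetLeft, gadgetRight, stdLeft, stdRight, if_false, Bool.false_eq_true]
  | 3 =>
    simp only [gadgetProj, gadgetLeft, gadgetRight, stdLeft, stdRight, if_true]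
    rw [choice_w]
  | 4 =>
    simp only [gadgetProj, gadgetLeft, gadgetRight, stdLeft, stdRight, if_true]
    have h := (clauseHolds_iff Φ σ c).1 (hi rfl)
    rw [choice_z _ _ _ h]
    exact signed_std _ _

/-- The number of satisfied constraints of clause `c` under a labeling, as a real number. -/
noncomputable def clauseCount {n m : ℕ} (Φ : NotTwoInstance n m) (A : Fin m × Bool → Fin 12)
    (B : Fin n ⊕ Fin m → Fin 6) (c : Fin m) : ℝ :=
  ∑ i : Fin 5, if gadgetProj Φ c i (A (gadgetLeft c i)) = B (gadgetRight Φ c i) then 1 else 0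

theorem satWeight_eq {n m : ℕ} (Φ : NotTwoInstance n m) (hm : 0 < m)
    (A : Fin m × Bool → Fin (2 * 6)) (B : Fin n ⊕ Fin m → Fin 6) :
    (gadgetGame Φ hm).satWeight A B = (∑ c, clauseCount Φ A B c) / (5 * (m : ℝ)) := by
  have h0 : (gadgetGame Φ hm).satWeight A B = ∑ e : Fin m × Fin 5, (1 / (5 * (m : ℝ))) *
      (if gadgetProj Φ e.1 e.2 (A (gadgetLeft e.1 e.2)) = B (gadgetRight Φ e.1 e.2)
        then 1 else 0) := rfl
  rw [h0]
  unfold clauseCount
  rw [Fintype.sum_prod_type, Finset.sum_div]
  refine Finset.sum_congr rfl fun c _ => ?_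
  rw [Finset.sum_div]
  refine Finset.sum_congr rfl fun i _ => ?_
  ring

theorem clauseCount_le_five {n m : ℕ} (Φ : NotTwoInstance n m) (A : Fin m × Bool → Fin 12)
    (B : Fin n ⊕ Fin m → Fin 6) (c : Fin m) : clauseCount Φ A B c ≤ 5 := by
  unfold clauseCount
  rw [Fin.sum_univ_five]
  split_ifs <;> norm_num

/-- The assignment read off from a labeling. -/
def readOff {n m : ℕ} (B : Fin n ⊕ Fin m → Fin 6) (t : Fin n) : Bool := decode (B (Sum.inl t))

theorem clause_holds_of_all {n m : ℕ} (Φ : NotTwoInstance n m) (A : Fin m × Bool → Fin 12)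
    (B : Fin n ⊕ Fin m → Fin 6) (c : Fin m)
    (h : ∀ i, gadgetProj Φ c i (A (gadgetLeft c i)) = B (gadgetRight Φ c i)) :
    Φ.ClauseHolds (readOff B) c := by
  rw [clauseHolds_iff]
  have h0 := h 0
  have h1 := h 1
  have h2 := h 2
  have h3 := h 3
  have h4 := h 4
  simp only [gadgetProj, gadgetLeft, gadgetRight] at h0 h1 h2 h3 h4
  have hw : t1w (A (c, false)) = t2w (A (c, true)) := h2.trans h3.symm
  have hs := local_sound _ _ hw
  rw [decode_of_signed_eq h0, decode_of_signed_eq h1, decode_of_signed_eq h4] at hs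
  exact hs

theorem clauseCount_le_four {n m : ℕ} (Φ : NotTwoInstance n m) (A : Fin m × Bool → Fin 12)
    (B : Fin n ⊕ Fin m → Fin 6) (c : Fin m) (hc : ¬ Φ.ClauseHolds (readOff B) c) :
    clauseCount Φ A B c ≤ 4 := by
  have : ¬ ∀ i, gadgetProj Φ c i (A (gadgetLeft c i)) = B (gadgetRight Φ c i) :=
    fun h => hc (clause_holds_of_all Φ A B c h)
  obtain ⟨i, hi⟩ := not_forall.mp this
  unfold clauseCount
  rw [Fin.sum_univ_five]
  match i with
  | 0 => simp only [if_neg hi]; split_ifs <;> norm_num
  | 1 => simp only [if_neg hi]; split_ifs <;> norm_num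
  | 2 => simp only [if_neg hi]; split_ifs <;> norm_num
  | 3 => simp only [if_neg hi]; split_ifs <;> norm_num
  | 4 => simp only [if_neg hi]; split_ifs <;> norm_num

theorem sum_le_of_pointwise {n m : ℕ} (Φ : NotTwoInstance n m) (σ : Fin n → Bool) (f : Fin m → ℝ)
    (h5 : ∀ c, f c ≤ 5) (h4 : ∀ c, ¬ Φ.ClauseHolds σ c → f c ≤ 4) :
    ∑ c, f c ≤ 4 * m + ((univ.filter fun c => Φ.ClauseHolds σ c).card : ℝ) := by
  have : ∀ c, f c ≤ 4 + (if Φ.ClauseHolds σ c then 1 else 0) := by
    intro c
    split_ifs with hc
    · linarith [h5 c]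
    · linarith [h4 c hc]
  calc ∑ c, f c ≤ ∑ c, (4 + (if Φ.ClauseHolds σ c then (1 : ℝ) else 0)) :=
        Finset.sum_le_sum fun c _ => this c
    _ = 4 * m + ((univ.filter fun c => Φ.ClauseHolds σ c).card : ℝ) := by
        rw [Finset.sum_add_distrib]
        simp [Finset.sum_boole]
        ring

theorem le_sum_of_pointwise {n m : ℕ} (Φ : NotTwoInstance n m) (σ : Fin n → Bool) (f : Fin m → ℝ)
    (h5 : ∀ c, Φ.ClauseHolds σ c → 5 ≤ f c) (h4 : ∀ c, 4 ≤ f c) :
    4 * m + ((univ.filter fun c => Φ.ClauseHolds σ c).card : ℝ) ≤ ∑ c, f c := by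
  have : ∀ c, 4 + (if Φ.ClauseHolds σ c then 1 else 0) ≤ f c := by
    intro c
    split_ifs with hc
    · linarith [h5 c hc]
    · linarith [h4 c]
  calc 4 * m + ((univ.filter fun c => Φ.ClauseHolds σ c).card : ℝ)
      = ∑ c, (4 + (if Φ.ClauseHolds σ c then (1 : ℝ) else 0)) := by
        rw [Finset.sum_add_distrib]
        simp [Finset.sum_boole]
        ring
    _ ≤ ∑ c, f c := Finset.sum_le_sum fun c _ => this c

theorem satWeight_le {n m : ℕ} (Φ : NotTwoInstance n m) (hm : 0 < m)
    (A : Fin m × Bool → Fin (2 * 6)) (B : Fin n ⊕ Fin m → Fin 6) :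
    (gadgetGame Φ hm).satWeight A B ≤ (4 + Φ.fraction (readOff B)) / 5 := by
  have hm' : (0 : ℝ) < m := by exact_mod_cast hm
  rw [satWeight_eq]
  have h := sum_le_of_pointwise Φ (readOff B) (clauseCount Φ A B)
    (clauseCount_le_five Φ A B) (clauseCount_le_four Φ A B)
  unfold NotTwoInstance.fraction
  rw [div_le_iff₀ (by positivity)]
  have : (4 + ((univ.filter fun c => Φ.ClauseHolds (readOff B) c).card : ℝ) / m) / 5 * (5 * m)
      = 4 * m + ((univ.filter fun c => Φ.ClauseHolds (readOff B) c).card : ℝ) := by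
    field_simp
  rw [this]
  exact h

theorem clauseCount_std_ge_four {n m : ℕ} (Φ : NotTwoInstance n m) (σ : Fin n → Bool)
    (c : Fin m) : 4 ≤ clauseCount Φ (stdLeft Φ σ) (stdRight Φ σ) c := by
  unfold clauseCount
  rw [Fin.sum_univ_five]
  rw [if_pos (std_edge Φ σ c 0 (by simp)), if_pos (std_edge Φ σ c 1 (by simp)),
    if_pos (std_edge Φ σ c 2 (by simp)), if_pos (std_edge Φ σ c 3 (by simp))]
  split_ifs <;> norm_num

theorem clauseCount_std_ge_five {n m : ℕ} (Φ : NotTwoInstance n m) (σ : Fin n → Bool)
    (c : Fin m) (hc : Φ.ClauseHolds σ c) :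
    5 ≤ clauseCount Φ (stdLeft Φ σ) (stdRight Φ σ) c := by
  unfold clauseCount
  rw [Fin.sum_univ_five]
  rw [if_pos (std_edge Φ σ c 0 (by simp)), if_pos (std_edge Φ σ c 1 (by simp)),
    if_pos (std_edge Φ σ c 2 (by simp)), if_pos (std_edge Φ σ c 3 (by simp)),
    if_pos (std_edge Φ σ c 4 (fun _ => hc))]
  norm_num

theorem le_satWeight_std {n m : ℕ} (Φ : NotTwoInstance n m) (hm : 0 < m) (σ : Fin n → Bool) :
    (4 + Φ.fraction σ) / 5 ≤ (gadgetGame Φ hm).satWeight (stdLeft Φ σ) (stdRight Φ σ) := by
  have hm' : (0 : ℝ) < m := by exact_mod_cast hm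
  rw [satWeight_eq]
  have h := le_sum_of_pointwise Φ σ (clauseCount Φ (stdLeft Φ σ) (stdRight Φ σ))
    (clauseCount_std_ge_five Φ σ) (clauseCount_std_ge_four Φ σ)
  unfold NotTwoInstance.fraction
  rw [le_div_iff₀ (by positivity)]
  have : (4 + ((univ.filter fun c => Φ.ClauseHolds σ c).card : ℝ) / m) / 5 * (5 * m)
      = 4 * m + ((univ.filter fun c => Φ.ClauseHolds σ c).card : ℝ) := by
    field_simp
  rw [this]
  exact h

theorem bddAbove_satWeight {n m : ℕ} (Φ : NotTwoInstance n m) (hm : 0 < m) :
    BddAbove (Set.range fun L : (Fin m × Bool → Fin (2 * 6)) × (Fin n ⊕ Fin m → Fin 6) =>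
      (gadgetGame Φ hm).satWeight L.1 L.2) :=
  (Set.finite_range _).bddAbove

theorem bddAbove_fraction {n m : ℕ} (Φ : NotTwoInstance n m) :
    BddAbove (Set.range fun σ : Fin n → Bool => Φ.fraction σ) :=
  (Set.finite_range _).bddAbove

/-- **Main theorem.** For every Not-2 instance `Φ` with at least one clause, the explicit 2-to-1
game `gadgetGame Φ hm` with alphabets `Fin (2 * 6)` and `Fin 6` has value exactly
`(4 + value Φ) / 5`; and a satisfying assignment of `Φ` yields a labeling that satisfies every
constraint of the game (perfect completeness). -/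
theorem result {n m : ℕ} (hm : 0 < m) (Φ : NotTwoInstance n m) :
    (gadgetGame Φ hm).value = (4 + Φ.value) / 5 ∧
    ((∃ σ, ∀ c, Φ.ClauseHolds σ c) →
      ∃ (A : Fin m × Bool → Fin (2 * 6)) (B : Fin n ⊕ Fin m → Fin 6),
        ∀ e, (gadgetGame Φ hm).proj e (A ((gadgetGame Φ hm).leftVertex e)) =
          B ((gadgetGame Φ hm).rightVertex e)) := by
  refine ⟨le_antisymm ?_ ?_, ?_⟩
  · refine ciSup_le fun L => (satWeight_le Φ hm L.1 L.2).trans ?_
    have : Φ.fraction (readOff L.2) ≤ Φ.value := le_ciSup (bddAbove_fraction Φ) _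
    linarith
  · have key : Φ.value ≤ 5 * (gadgetGame Φ hm).value - 4 := by
      refine ciSup_le fun σ => ?_
      have h1 := le_satWeight_std Φ hm σ
      have h2 : (gadgetGame Φ hm).satWeight (stdLeft Φ σ) (stdRight Φ σ) ≤
          (gadgetGame Φ hm).value :=
        le_ciSup (bddAbove_satWeight Φ hm) (stdLeft Φ σ, stdRight Φ σ)
      linarith
    linarith
  · rintro ⟨σ, hσ⟩
    exact ⟨stdLeft Φ σ, stdRight Φ σ, fun e => std_edge Φ σ e.1 e.2 fun _ => hσ e.1⟩

end Vale.Agent.Results.P339.NotTwoGadget
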